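import Vale.Agent.P216.H901.W3
import Vale.Agent.P216.H754B.Gen

/-!
# Block B44: the operators on the Wang data of a trivialisation
-/

set_option linter.unusedVariables false

open Set

namespace Vale.Agent.P216.H754B

open Vale.Agent.P216.AS Vale.Agent.P216.H901 Vale.Agent.P216.H83

/-- A family of self maps of the pairs `(A t, A' t)`, natural up to homotopy. -/
structure SpOp {E : Type} [PseudoMetricSpace E] (A A' : ℝ → Set E) where
  r : ℝ → E → E
  map : ∀ t, 0 < t → IsMap (tr E) (tr E) (A t) (A t) (r t)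
  sub : ∀ t, 0 < t → MapsTo (r t) (A' t) (A' t)
  nat : ∀ s t, 0 < s → s ≤ t → Hp (A s) (A' s) (A t) (A' t) (r s) (r t)

section SpOp

variable {E : Type} [PseudoMetricSpace E] {A A' : ℝ → Set E} {k : Type} [Field k]

/-- The operator on the relative cohomology. -/
noncomputable def SpOp.op (R : SpOp A A') (k : Type) [Field k] (hA : Mono A) (hA' : Mono A')
    (hAA : ∀ t, A' t ⊆ A t) (q : ℕ) : PMOp (PMr k A A' hA hA' q) where
  r t ht := pullR (on k) (R.map t ht) (hAA t) (R.sub t ht) q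
  nat s t hs h ht x := by
    have h1 : IsMap (tr E) (tr E) (A s) (A t) (R.r t) :=
      (R.map t ht).mono (hA s t hs h) fun x hx => (R.map t ht).mapsX (hA s t hs h hx)
    have h1' : MapsTo (R.r t) (A' s) (A' t) := fun x hx => R.sub t ht (hA' s t hs h hx)
    have h2 : IsMap (tr E) (tr E) (A s) (A t) (R.r s) :=
      (R.map s hs).mono le_rfl fun x hx => hA s t hs h ((R.map s hs).mapsX hx)
    have h2' : MapsTo (R.r s) (A' s) (A' t) := fun x hx => hA' s t hs h (R.sub s hs hx)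
    have e := LinearMap.congr_fun ((R.nat s t hs h).pullR_eq (k := k) (hAA s) h2 h2' h1 h1' q) x
    obtain ⟨y, hy, rfl⟩ := H.exists_mk x
    exact e.symm

/-- The operator on the absolute cohomology. -/
noncomputable def SpOp.opa (R : SpOp A (fun _ => ∅)) (k : Type) [Field k] (hA : Mono A) (q : ℕ) :
    PMOp (PMa k A hA q) where
  r t ht := pull (on k) (R.map t ht) q
  nat s t hs h ht x := by
    have e := (R.op k hA mono_empty (fun _ => empty_subset _) q).nat s t hs h ht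
      (absE k (A t) q x)
    have key : ∀ (u : ℝ) (hu : 0 < u) (y : Ha (tr E) (on k) (A u) q),
        (R.op k hA mono_empty (fun _ => empty_subset _) q).r u hu (absE k (A u) q y) =
        absE k (A u) q (pull (on k) (R.map u hu) q y) := by
      intro u hu y
      obtain ⟨y, hy, rfl⟩ := H.exists_mk y
      rfl
    have e1 := key t ht x
    have e1' := key s hs (res (hA s t hs h) q x)
    have e2 : (PMr k A (fun _ => ∅) hA mono_empty q).ρ s t hs h (absE k (A t) q
        (pull (on k) (R.map t ht) q x)) = absE k (A s) q (res (hA s t hs h) q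
          (pull (on k) (R.map t ht) q x)) := absE_nat k (hA s t hs h) q _
    have e3 : (PMr k A (fun _ => ∅) hA mono_empty q).ρ s t hs h (absE k (A t) q x) =
        absE k (A s) q (res (hA s t hs h) q x) := absE_nat k (hA s t hs h) q _
    have e4 := e2.symm.trans ((congrArg ((PMr k A (fun _ => ∅) hA mono_empty q).ρ s t hs h)
      e1.symm).trans (e.trans ((congrArg ((R.op k hA mono_empty (fun _ => empty_subset _) q).r
        s hs) e3).trans e1')))
    exact (absE k (A s) q).injective e4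

end SpOp

/-! ### Isomorphisms commuting with the operators -/

section Iso

variable {k : Type} [Field k] {A B A' B' : PM k}

/-- The isomorphism commutes with the operators. -/
def IsoOp (I : PMIso A B) (OA : PMOp A) (OB : PMOp B) : Prop :=
  ∀ t ht x, I.e t ht (OA.r t ht x) = OB.r t ht (I.e t ht x)

theorem IsoOp.symm {I : PMIso A B} {OA : PMOp A} {OB : PMOp B} (h : IsoOp I OA OB) :
    IsoOp I.symm OB OA := by
  intro t ht x
  change (I.e t ht).symm (OB.r t ht x) = OA.r t ht ((I.e t ht).symm x)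
  rw [LinearEquiv.symm_apply_eq, h, LinearEquiv.apply_symm_apply]

theorem isoOp_refl {OA : PMOp A} : IsoOp (isoRefl A) OA OA := fun _ _ _ => rfl

theorem IntlOp.iso {c : ℝ} {I : PMIso A A'} {J : PMIso B B'} (hc : 0 ≤ c) {K : Intl A' B' c}
    {OA : PMOp A} {OB : PMOp B} {OA' : PMOp A'} {OB' : PMOp B'} (hI : IsoOp I OA OA')
    (hJ : IsoOp J OB OB') (hK : IntlOp K OA' OB') : IntlOp (I.intl J hc K) OA OB where
  f o s t hs ht h := by
    have e := hK.f (o.map (fun t ht => (I.e t ht).toLinearMap) fun s t hs ht h x =>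
      I.nat s t hs ht h x) s t hs ht h
    change (J.e s hs).symm (K.f s t hs h (I.e t ht (OA.r t ht (o.z t ht)))) =
      OB.r s hs ((J.e s hs).symm (K.f s t hs h (I.e t ht (o.z t ht))))
    change K.f s t hs h (OA'.r t ht (I.e t ht (o.z t ht))) =
      OB'.r s hs (K.f s t hs h (I.e t ht (o.z t ht))) at e
    rw [hI, e]
    exact hJ.symm s hs _
  g o s t hs ht h := by
    have e := hK.g (o.map (fun t ht => (J.e t ht).toLinearMap) fun s t hs ht h x =>
      J.nat s t hs ht h x) s t hs ht h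
    change (I.e s hs).symm (K.g s t hs h (J.e t ht (OB.r t ht (o.z t ht)))) =
      OA.r s hs ((I.e s hs).symm (K.g s t hs h (J.e t ht (o.z t ht))))
    change K.g s t hs h (OB'.r t ht (J.e t ht (o.z t ht))) =
      OA'.r s hs (K.g s t hs h (J.e t ht (o.z t ht))) at e
    rw [hJ, e]
    exact hI.symm s hs _

/-- Transport of the operators on the Wang data. -/
def WangOp.congr {m : ℕ} {G G' X X' : ℕ → PM k} {c : ℝ} {w : Wang m G X c}
    {OG : ∀ q, PMOp (G q)} {OX : ∀ q, PMOp (X q)} (O : WangOp w OG OX) {eG : ∀ q, PMIso (G q) (G' q)}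
    {eX : ∀ q, PMIso (X q) (X' q)} {OG' : ∀ q, PMOp (G' q)} {OX' : ∀ q, PMOp (X' q)}
    (hG : ∀ q, IsoOp (eG q) (OG q) (OG' q)) (hX : ∀ q, IsoOp (eX q) (OX q) (OX' q)) :
    WangOp (w.congr eG eX) OG' OX' where
  P := O.P
  Q := O.Q
  α q t ht x := (congrArg ((eX q).e t ht) (O.α q t ht x)).trans (hX q t ht _)
  β q t ht x := (congrArg (w.β q t ht) ((hX q).symm t ht x)).trans (O.β q t ht _)
  δ := O.δ
  iQ q := IntlOp.iso w.c0 (fun _ _ _ => rfl) (hG q).symm (O.iQ q)
  iP q := IntlOp.iso w.c0 (fun _ _ _ => rfl) (hG q).symm (O.iP q)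

end Iso

/-! ### Families over `M` -/

/-- Self maps over `M` of an increasing family, natural up to homotopy over `M`. -/
structure EvOp {E M : Type} [PseudoMetricSpace E] (ev : E → M) (X : ℝ → Set E) where
  r : ℝ → E → E
  map : ∀ t, 0 < t → IsMap (tr E) (tr E) (X t) (X t) (r t)
  ev_r : ∀ t, 0 < t → ∀ x ∈ X t, ev (r t x) = ev x
  nat : ∀ s t, 0 < s → s ≤ t → ∃ D : ℝ → E → E, IsHtpy (tr E) (tr E) (X s) (X t) D ∧
    (∀ l ∈ Icc (0 : ℝ) 1, ∀ x ∈ X s, ev (D l x) = ev x) ∧ EqOn (D 0) (r s) (X s) ∧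
    EqOn (D 1) (r t) (X s)

/-- A subfamily of the form `X t` over `D`, or `∅`. -/
structure Sb {E M : Type} (ev : E → M) (X A : ℝ → Set E) : Prop where
  sub : ∀ t, A t ⊆ X t
  st : ∀ s t, 0 < s → s ≤ t → ∀ x ∈ A s, ∀ y ∈ X t, ev y = ev x → y ∈ A t

section Ev

variable {E M : Type} {ev : E → M} {X A A' : ℝ → Set E}

theorem sb_self : Sb ev X X := ⟨fun _ => subset_rfl, fun _ _ _ _ _ _ _ h _ => h⟩

theorem sb_empty : Sb ev X fun _ => ∅ := ⟨fun _ => empty_subset _, fun _ _ _ _ _ h => h.elim⟩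

theorem sb_ovr (D : Set M) : Sb ev X (ovr ev X D) :=
  ⟨fun _ _ h => h.1, fun _ _ _ _ x hx y hy h => ⟨hy, by
    rw [h]
    exact hx.2⟩⟩

/-- The operator on the pairs. -/
def EvOp.sp [PseudoMetricSpace E] (R : EvOp ev X) (hA : Sb ev X A) (hA' : Sb ev X A') (hAA : ∀ t, A' t ⊆ A t) :
    SpOp A A' where
  r := R.r
  map t ht := (R.map t ht).mono (hA.sub t) fun x hx => hA.st t t ht le_rfl x hx _
    ((R.map t ht).mapsX (hA.sub t hx)) (R.ev_r t ht x (hA.sub t hx))
  sub t ht x hx := hA'.st t t ht le_rfl x hx _ ((R.map t ht).mapsX (hA'.sub t hx))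
    (R.ev_r t ht x (hA'.sub t hx))
  nat s t hs hst := by
    obtain ⟨D, hD, hev, h0, h1⟩ := R.nat s t hs hst
    refine ⟨D, hD.mono (hA.sub s) fun l hl x hx => hA.st s t hs hst x hx _
      (hD.mapsX l hl (hA.sub s hx)) (hev l hl x (hA.sub s hx)), fun l hl x hx =>
      hA'.st s t hs hst x hx _ (hD.mapsX l hl (hA'.sub s hx)) (hev l hl x (hA'.sub s hx)),
      fun x hx => h0 (hA.sub s hx), fun x hx => h1 (hA.sub s hx)⟩

end Ev

/-! ### The suspension -/

/-- `f × id` on `E × I^n`. -/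
def cuM {E E' : Type} (f : E → E') : ∀ n, Cu E n → Cu E' n
  | 0 => f
  | n + 1 => Prod.map (cuM f n) id

section cuM

variable {E E' : Type} [MetricSpace E] [MetricSpace E'] {f : E → E'} {Z : Set E} {Z' : Set E'}

theorem isMap_cuM (h : IsMap (tr E) (tr E') Z Z' f) : ∀ n,
    IsMap (tr (Cu E n)) (tr (Cu E' n)) (cub n Z) (cub n Z') (cuM f n)
  | 0 => h
  | n + 1 => isMap_cyl (isMap_cuM h n)

theorem mapsTo_cuM (h : IsMap (tr E) (tr E') Z Z' f) : ∀ n,
    MapsTo (cuM f n) (bdc n Z) (bdc n Z')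
  | 0 => mapsTo_empty _ _
  | n + 1 => mapsTo_bcyl (isMap_cuM h n).mapsX (mapsTo_cuM h n)

theorem susN_cuM {k : Type} [Field k] (h2 : (2 : k) ≠ 0) (h : IsMap (tr E) (tr E') Z Z' f)
    (q : ℕ) : ∀ (n : ℕ) (x : Hr (tr (Cu E' n)) (on k) (cub n Z') (bdc n Z') (q + n)),
    susN h2 Z q n (pullR (on k) (isMap_cuM h n) (bdc_subset n Z) (mapsTo_cuM h n) (q + n) x) =
      pullR (on k) h (empty_subset Z) (mapsTo_empty f ∅) q (susN h2 Z' q n x)
  | 0, x => rfl
  | n + 1, x => by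
    have e := sus_pullR h2 (isMap_cuM h n) (bdc_subset n Z) (mapsTo_cuM h n) (q + n) x
    change susN h2 Z q n (sus h2 (cub n Z) (bdc n Z) (q + n) (pullR (on k) _ _ _ (q + n + 1) x)) =
      pullR (on k) h (empty_subset Z) (mapsTo_empty f ∅) q
        (susN h2 Z' q n (sus h2 (cub n Z') (bdc n Z') (q + n) x))
    rw [← susN_cuM h2 h q n, ← e]
    rfl

end cuM

/-! ### The operators on the Wang data -/

theorem lesD_pullR {E : Type} [PseudoMetricSpace E] (k : Type) [Field k] {X A : Set E}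
    {f : E → E} (h : IsMap (tr E) (tr E) X X f) (hA : A ⊆ X) (hf : MapsTo f A A)
    (h' : IsMap (tr E) (tr E) A A f) (q : ℕ) (x : Hr (tr E) (on k) A ∅ q) :
    lesD k X A q (pullR (on k) h' (empty_subset A) (mapsTo_empty f ∅) q x) =
      pullR (on k) h hA hf (q + 1) (lesD k X A q x) := by
  obtain ⟨y, hy, rfl⟩ := H.exists_mk x
  have hy1 : y ∈ Zc (Zr (tr E) (on k) X ∅) (Zr (tr E) (on k) X A) q :=
    IsMor.mapZ (IsMor.id_of_le (zr_le A X ∅) (zr_le A X A)) hy
  have hy2 : pbK k f q y ∈ Zc (Zr (tr E) (on k) X ∅) (Zr (tr E) (on k) X A) q :=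
    IsMor.mapZ (h.isMor_Zr hA hf (empty_subset X) (mapsTo_empty f ∅)) hy1
  have e1 : lesD k X A q (H.mk y hy) = H.mk ((ASK E k).d q y) (mapZ_d _ hy1) := rfl
  have e2 : lesD k X A q (pullR (on k) h' (empty_subset A) (mapsTo_empty f ∅) q (H.mk y hy)) =
      H.mk ((ASK E k).d q (pbK k f q y)) (mapZ_d _ hy2) := rfl
  rw [e1, e2, pullR_mk, H.mk_eq_mk, pbK_d, sub_self]
  exact Submodule.zero_mem _

section W

variable {E E' M : Type} [MetricSpace E] [MetricSpace E'] [MetricSpace M] {ev : E → M}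
  {X : ℝ → Set E} {Om : ℝ → Set E'} {c : ℝ} {m : ℕ}

/-- Operators on the spaces, commuting with the trivialisations. -/
structure TrivOp (T : Triv (m + 1) ev X Om c) where
  oX : EvOp ev X
  oOm : SpOp Om (fun _ => ∅)
  tm : ∀ t, 0 < t → ∀ w ∈ ovr ev X T.Dm t, oOm.r (t + c) (T.tm.f t w) = T.tm.f t (oX.r t w)
  tp : ∀ t, 0 < t → ∀ w ∈ ovr ev X T.Dp t,
    cuM (oOm.r (t + c)) (m + 1) (T.tp.f t w) = T.tp.f t (oX.r t w)

variable {k : Type} [Field k] {T : Triv (m + 1) ev X Om c} (R : TrivOp T)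

namespace TrivOp

/-- The operator on the based loops. -/
noncomputable def oG0 (q : ℕ) : PMOp (PMr k Om (fun _ => ∅) T.Om_mono mono_empty q) :=
  R.oOm.op k T.Om_mono mono_empty (fun _ => empty_subset _) q

/-- The operator on the free loops. -/
noncomputable def oX0 (q : ℕ) : PMOp (PMr k X (fun _ => ∅) T.X_mono mono_empty q) :=
  (R.oX.sp sb_self sb_empty fun _ => empty_subset _).op k T.X_mono mono_empty
    (fun _ => empty_subset _) q

/-- The operator on the relative groups. -/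
noncomputable def oP0 (q : ℕ) :
    PMOp (PMr k X (ovr ev X T.Dm) T.X_mono (mono_ovr T.X_mono _) q) :=
  (R.oX.sp sb_self (sb_ovr T.Dm) (sb_ovr T.Dm).sub).op k T.X_mono (mono_ovr T.X_mono _)
    (sb_ovr T.Dm).sub q

/-- The operator on the free loops over `D₋`. -/
noncomputable def oQ0 (q : ℕ) :
    PMOp (PMr k (ovr ev X T.Dm) (fun _ => ∅) (mono_ovr T.X_mono _) mono_empty q) :=
  (R.oX.sp (sb_ovr T.Dm) sb_empty fun _ => empty_subset _).op k (mono_ovr T.X_mono _) mono_empty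
    (fun _ => empty_subset _) q

/-- The operator on the relative groups over `D₊`. -/
noncomputable def oE0 (q : ℕ) :
    PMOp (PMr k (ovr ev X T.Dp) (ovr ev X (T.Dp ∩ T.Dm)) (mono_ovr T.X_mono _)
      (mono_ovr T.X_mono _) q) :=
  (R.oX.sp (sb_ovr T.Dp) (sb_ovr (T.Dp ∩ T.Dm))
    fun t => ovr_mono subset_rfl inter_subset_left).op k (mono_ovr T.X_mono _)
    (mono_ovr T.X_mono _) (fun t => ovr_mono subset_rfl inter_subset_left) q

theorem iQ0 (q : ℕ) : IntlOp (T.tm.intl k (mono_ovr T.X_mono _) mono_empty T.Om_mono mono_empty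
    (fun t => empty_subset _) (fun t => empty_subset _) T.c0 q) (R.oQ0 q) (R.oG0 q) := by
  refine IntlOp.of_g T.c0 fun s hs ht x => ?_
  have m1 := T.tm.map_f T.Om_mono T.c0 hs (le_refl (s + c))
  have m2 := R.oOm.map (s + c) ht
  have m3 := (R.oX.sp (sb_ovr T.Dm) (sb_empty (ev := ev)) fun _ => empty_subset _).map s hs
  have he : EqOn (R.oOm.r (s + c) ∘ T.tm.f s) (T.tm.f s ∘ R.oX.r s) (ovr ev X T.Dm s) :=
    fun w hw => R.tm s hs w hw
  have e := LinearMap.congr_fun (pullR_congr (χ := on k) (n := q) (m2.comp m1) (m1.comp m3)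
    (empty_subset _) (mapsTo_empty _ _) (mapsTo_empty _ ∅) he) x
  obtain ⟨y, hy, rfl⟩ := H.exists_mk x
  exact e

theorem iE0 (h2 : (2 : k) ≠ 0) (q : ℕ) (s : ℝ) (hs : 0 < s) (ht : 0 < s + c)
    (x : Hr (tr (Cu E' (m + 1))) (on k) (cub (m + 1) (Om (s + c))) (bdc (m + 1) (Om (s + c)))
      (q + (m + 1))) :
    (T.tp.intl k (mono_ovr T.X_mono _) (mono_ovr T.X_mono _) (mono_cub (m + 1) T.Om_mono)
      (mono_bdc (m + 1) T.Om_mono) (fun t => ovr_mono subset_rfl inter_subset_left)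
      (fun t => bdc_subset _ _) T.c0 (q + (m + 1))).g s (s + c) hs le_rfl
      (pullR (on k) (isMap_cuM (R.oOm.map (s + c) ht) (m + 1)) (bdc_subset _ _)
        (mapsTo_cuM (R.oOm.map (s + c) ht) (m + 1)) (q + (m + 1)) x) =
    (R.oE0 (q + (m + 1))).r s hs ((T.tp.intl k (mono_ovr T.X_mono _) (mono_ovr T.X_mono _)
      (mono_cub (m + 1) T.Om_mono) (mono_bdc (m + 1) T.Om_mono)
      (fun t => ovr_mono subset_rfl inter_subset_left) (fun t => bdc_subset _ _) T.c0
      (q + (m + 1))).g s (s + c) hs le_rfl x) := by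
  have m1 := T.tp.map_f (mono_cub (m + 1) T.Om_mono) T.c0 hs (le_refl (s + c))
  have s1 := T.tp.sub_f (mono_bdc (m + 1) T.Om_mono) T.c0 hs (le_refl (s + c))
  have m2 := isMap_cuM (R.oOm.map (s + c) ht) (m + 1)
  have s2 := mapsTo_cuM (R.oOm.map (s + c) ht) (m + 1)
  have hsub : ∀ t, ovr ev X (T.Dp ∩ T.Dm) t ⊆ ovr ev X T.Dp t :=
    fun t => ovr_mono subset_rfl inter_subset_left
  have m3 := (R.oX.sp (sb_ovr T.Dp) (sb_ovr (T.Dp ∩ T.Dm)) hsub).map s hs
  have s3 := (R.oX.sp (sb_ovr T.Dp) (sb_ovr (T.Dp ∩ T.Dm)) hsub).sub s hs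
  have he : EqOn (cuM (R.oOm.r (s + c)) (m + 1) ∘ T.tp.f s) (T.tp.f s ∘ R.oX.r s)
      (ovr ev X T.Dp s) := fun w hw => R.tp s hs w hw
  have e := LinearMap.congr_fun (pullR_congr (χ := on k) (n := q + (m + 1)) (m2.comp m1)
    (m1.comp m3) (hsub s) (s2.comp s1) (s1.comp s3) he) x
  obtain ⟨y, hy, rfl⟩ := H.exists_mk x
  exact e

theorem isoExc_op (h2 : (2 : k) ≠ 0) (q : ℕ) : IsoOp (T.isoExc h2 q) (R.oP0 q) (R.oE0 q) := by
  intro t ht x
  obtain ⟨y, hy, rfl⟩ := H.exists_mk x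
  rfl

theorem iP0 (h2 : (2 : k) ≠ 0) (q : ℕ) : IntlOp ((T.wang0 h2).iP q) (R.oP0 (q + (m + 1)))
    (R.oG0 q) := by
  refine IntlOp.of_g T.c0 fun s hs ht x => ?_
  obtain ⟨y, rfl⟩ := (susN h2 (Om (s + c)) q (m + 1)).surjective x
  have e1 := susN_cuM h2 (R.oOm.map (s + c) ht) q (m + 1) y
  have e2 := R.iE0 h2 q s hs ht y
  have e3 := (R.isoExc_op h2 (q + (m + 1))).symm s hs
    ((T.tp.intl k (mono_ovr T.X_mono _) (mono_ovr T.X_mono _)
      (mono_cub (m + 1) T.Om_mono) (mono_bdc (m + 1) T.Om_mono)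
      (fun t => ovr_mono subset_rfl inter_subset_left) (fun t => bdc_subset _ _) T.c0
      (q + (m + 1))).g s (s + c) hs le_rfl y)
  have key : ∀ z : Hr (tr (Cu E' (m + 1))) (on k) (cub (m + 1) (Om (s + c)))
      (bdc (m + 1) (Om (s + c))) (q + (m + 1)),
      ((T.wang0 h2).iP q).g s (s + c) hs le_rfl (susN h2 (Om (s + c)) q (m + 1) z) =
      ((T.isoExc h2 (q + (m + 1))).e s hs).symm
        ((T.tp.intl k (mono_ovr T.X_mono _) (mono_ovr T.X_mono _)
          (mono_cub (m + 1) T.Om_mono) (mono_bdc (m + 1) T.Om_mono)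
          (fun t => ovr_mono subset_rfl inter_subset_left) (fun t => bdc_subset _ _) T.c0
          (q + (m + 1))).g s (s + c) hs le_rfl z) := by
    intro z
    change ((T.isoExc h2 (q + (m + 1))).e s hs).symm
        ((T.tp.intl k (mono_ovr T.X_mono _) (mono_ovr T.X_mono _)
          (mono_cub (m + 1) T.Om_mono) (mono_bdc (m + 1) T.Om_mono)
          (fun t => ovr_mono subset_rfl inter_subset_left) (fun t => bdc_subset _ _) T.c0
          (q + (m + 1))).g s (s + c) hs le_rfl ((susN h2 (Om (s + c)) q (m + 1)).symm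
            (susN h2 (Om (s + c)) q (m + 1) z))) = _
    rw [LinearEquiv.symm_apply_apply]
  change ((T.wang0 h2).iP q).g s (s + c) hs le_rfl (pullR (on k) (R.oOm.map (s + c) ht)
    (empty_subset _) (mapsTo_empty _ ∅) q (susN h2 (Om (s + c)) q (m + 1) y)) = _
  rw [← e1, key, key, e2]
  exact e3

/-- The operators on the Wang data. -/
noncomputable def wangOp0 (h2 : (2 : k) ≠ 0) :
    WangOp (T.wang0 h2) (fun q => R.oG0 q) (fun q => R.oX0 q) where
  P q := R.oP0 q
  Q q := R.oQ0 q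
  α q t ht x := by
    obtain ⟨y, hy, rfl⟩ := H.exists_mk x
    rfl
  β q t ht x := by
    obtain ⟨y, hy, rfl⟩ := H.exists_mk x
    rfl
  δ q t ht x := lesD_pullR k
    ((R.oX.sp sb_self (sb_ovr T.Dm) (sb_ovr T.Dm).sub).map t ht) ((sb_ovr T.Dm).sub t)
    ((R.oX.sp sb_self (sb_ovr T.Dm) (sb_ovr T.Dm).sub).sub t ht)
    ((R.oX.sp (sb_ovr T.Dm) (sb_empty (ev := ev)) fun _ => empty_subset _).map t ht) q x
  iQ q := R.iQ0 q
  iP q := R.iP0 h2 q

/-- **The operators on the Wang data of a trivialisation.** -/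
noncomputable def wangOp (h2 : (2 : k) ≠ 0) :
    WangOp (T.wang h2) (fun q => R.oOm.opa k T.Om_mono q)
      (fun q => (R.oX.sp sb_self sb_empty fun _ => empty_subset _).opa k T.X_mono q) :=
  WangOp.congr (R.wangOp0 h2)
    (fun q t ht x => by
      obtain ⟨y, hy, rfl⟩ := H.exists_mk x
      rfl)
    (fun q t ht x => by
      obtain ⟨y, hy, rfl⟩ := H.exists_mk x
      rfl)

end TrivOp

end W

end Vale.Agent.P216.H754B
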