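import Vale.Agent.P216.H754B.Out
import Vale.Agent.P216.H754B.Rev
import Vale.Agent.P216.H388.Sph
import Vale.Agent.P216.MV337.ToX

/-!
# Block B44: the stable cohomology of the free Moore loops (`FLGoal`)
-/

set_option linter.unusedVariables false

open Set BoundedContinuousFunction

namespace Vale.Agent.P216.H754B

open Vale.Agent.P216.AS Vale.Agent.P216.H901 Vale.Agent.P216.PS Vale.Agent.P216.MV337
open Vale.Agent.P216.B64

section Adapter

variable {M : Type} [MetricSpace M] {x₀ : M} {m : ℕ} {B : ℝ} {k : Type} [Field k]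

theorem mono_P (x₀ : M) : Mono fun t => P x₀ x₀ t := fun _ _ _ h => P_mono h

theorem mono_FL : Mono fun t => FL M t := fun _ _ _ h => FL_mono h

/-- The persistence module `H^q(P x₀ x₀ t)`. -/
noncomputable abbrev GP (k : Type) [Field k] (x₀ : M) (q : ℕ) : PM k :=
  PMa k (fun t => P x₀ x₀ t) (mono_P x₀) q

/-- The persistence module `H^q(FL M t)`. -/
noncomputable abbrev XP (k : Type) [Field k] (M : Type) [MetricSpace M] (q : ℕ) : PM k :=
  PMa k (fun t => FL M t) mono_FL q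

/-- The family of the classes `om j`. -/
noncomputable def omF (O : OmegaOut M m x₀ B k) (j : ℕ) : (GP k x₀ (j * m)).Fam where
  z t _ := O.om j t
  comp s t hs h := O.res_om j s t h

/-- The properties of the family in degree `q = m * j`. -/
structure OQ (O : OmegaOut M m x₀ B k) (j q : ℕ) (g : (GP k x₀ q).Fam) : Prop where
  line : (GP k x₀ q).Line g B
  z_iff : ∀ t ht, g.z t ht = 0 ↔ O.om j t = 0

theorem exists_OQ (hB : 0 ≤ B) (O : OmegaOut M m x₀ B k) (j q : ℕ) (hq : q = j * m) :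
    ∃ g : (GP k x₀ q).Fam, OQ O j q g := by
  subst hq
  refine ⟨omF O j, ⟨?_, fun _ _ => Iff.rfl⟩⟩
  intro s t hs hst hb x
  have h1 : P x₀ x₀ s ⊆ P x₀ x₀ (s + B) := P_mono (by linarith)
  obtain ⟨c, hc⟩ := O.span j s hs.le h1 (res (P_mono hb) (j * m) x)
  refine ⟨c, ?_⟩
  have e : (GP k x₀ (j * m)).ρ s t hs hst x = hres k h1 (j * m) (res (P_mono hb) (j * m) x) :=
    (res_res _ _ x).symm
  rw [e, hc]
  rfl

/-- **From `OmegaOut` to `Based`.** -/
noncomputable def basedOf (hB : 0 ≤ B) (O : OmegaOut M m x₀ B k) :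
    Based m (fun q => GP k x₀ q) B B 0 where
  om j := (exists_OQ hB O j (m * j) (mul_comm m j)).choose
  van q hq s t hs hst hb x := by
    have h1 : P x₀ x₀ s ⊆ P x₀ x₀ (s + B) := P_mono (by linarith)
    have e : (GP k x₀ q).ρ s t hs hst x = hres k h1 q (res (P_mono hb) q x) :=
      (res_res _ _ x).symm
    rw [e]
    exact O.zero q hq s hs.le h1 _
  line j := (exists_OQ hB O j (m * j) (mul_comm m j)).choose_spec.line
  down j s t hs ht h h0 := by
    have hj := (exists_OQ hB O j (m * j) (mul_comm m j)).choose_spec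
    have hj1 := (exists_OQ hB O (j + 1) (m * (j + 1)) (mul_comm m (j + 1))).choose_spec
    rw [hj1.z_iff s hs]
    refine O.up j s hs.le ?_
    rw [← O.res_om j (s + B) t h, (hj.z_iff t ht).1 h0, map_zero]
  up j s t hs ht h hne h0 := by
    have hj := (exists_OQ hB O j (m * j) (mul_comm m j)).choose_spec
    have hj1 := (exists_OQ hB O (j + 1) (m * (j + 1)) (mul_comm m (j + 1))).choose_spec
    apply hne
    rw [hj.z_iff s hs]
    refine O.down j s hs.le ?_
    rw [← O.res_om (j + 1) (s + B) t h, (hj1.z_iff t ht).1 h0, map_zero]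
  om0 t ht _ h0 := by
    have hj := (exists_OQ hB O 0 (m * 0) (mul_comm m 0)).choose_spec
    exact O.om_ne t ht.le ((hj.z_iff t ht).1 h0)

end Adapter

/-- A larger constant. -/
def Free.mono {k : Type} [Field k] {m : ℕ} {G X : ℕ → PM k} {B C B0 c B' B'' : ℝ}
    {w : Wang m G X c} {b : Based m G B C B0} (F : Free w b B') (h : B' ≤ B'') :
    Free w b B'' where
  cf := F.cf
  cf0 := F.cf0
  th := F.th
  x := F.x
  y := F.y
  x_om := F.x_om
  y_def := F.y_def
  eph q h1 h2 := (F.eph q h1 h2).mono h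
  line_x j := (F.line_x j).mono h
  line_y j := (F.line_y j).mono h
  x_zero := F.x_zero
  y_zero := F.y_zero
  x_ne j hj s t hs ht hst := F.x_ne j hj s t hs ht (by linarith)
  om_ne j s t hs ht hst := F.om_ne j s t hs ht (by linarith)

/-! ### From the persistence modules to `FLOut` -/

theorem revP_eq {M : Type} [MetricSpace M] {t : ℝ} {f : (ℝ →ᵇ M) → (ℝ →ᵇ M)} (h : RevP t f) :
    f = rv t := by
  funext w
  ext u
  exact h w u

section Out

variable {M : Type} [MetricSpace M] {n : ℕ} {B : ℝ} {k : Type} [Field k]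
  (P : PMOut n (fun q => XP k M q)
    (fun q => (evOp.sp sb_self sb_empty fun _ => empty_subset _).opa k mono_FL q) B)

/-- The generators, for all real `t`. -/
noncomputable def gg (q : ℕ) (t : ℝ) : HU k (FL M t) q :=
  if ht : 0 < t then (P.g q).z t ht else (0 : HU k (FL M t) q)

theorem gg_eq (q : ℕ) (t : ℝ) (ht : 0 < t) : gg P q t = (P.g q).z t ht := by
  unfold gg
  exact dif_pos ht

/-- **`FLOut` from `PMOut`.** -/
noncomputable def flOut (hB : 0 ≤ B) : FLOut M n B k where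
  g := gg P
  res_g q s t hs h := by
    rw [gg_eq P q s hs, gg_eq P q t (hs.trans_le h)]
    exact (P.g q).comp s t hs h
  span q t ht h z := by
    obtain ⟨a, ha⟩ := P.line q t (t + B) ht (by linarith) le_rfl z
    refine ⟨a, ?_⟩
    rw [gg_eq P q t ht]
    exact ha
  g_zero q t ht hq := by
    rw [gg_eq P q t ht]
    exact P.g_zero q hq t ht
  rev_zero t ht f hf h := by
    obtain rfl := revP_eq hf
    rw [gg_eq P _ t ht]
    exact P.rev_zero t ht
  rev_x i t ht f hf h := by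
    obtain rfl := revP_eq hf
    rw [gg_eq P _ t ht]
    exact P.rev_x i t ht
  rev_y i t ht f hf h := by
    obtain rfl := revP_eq hf
    rw [gg_eq P _ t ht]
    exact P.rev_y i t ht
  birth0 t ht h := by
    rw [gg_eq P _ t ht]
    exact P.birth0 t ht h
  birth i t ht h := by
    rw [gg_eq P _ t ht] at h
    rw [gg_eq P _ (t + B) (by linarith)]
    exact P.birth i t (t + B) ht (by linarith) le_rfl h

end Out

/-! ### The assembly -/

/-- **B38 without the signs.** -/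
def OmegaGoal0 : Prop := ∀ n : ℕ, 3 ≤ n → ∀ (M : Type) [MetricSpace M] [CompactSpace M] (ρ : ℝ),
  0 < ρ → LS.UniqSeg M ρ → Nonempty (M ≃ₜ Sph n) → ∀ x₀ : M, ∃ B : ℝ, 0 < B ∧
  ∀ (k : Type) [Field k], (2 : k) ≠ 0 → Nonempty (OmegaOut M (n - 1) x₀ B k)

/-- **B43 (SIGN)**: the signs of the `om j` and the structure constants, `n = m + 1`. -/
def SignGoal : Prop := ∀ m : ℕ, 3 ≤ m → ∀ (M : Type) [MetricSpace M] [CompactSpace M] (ρ : ℝ),
  0 < ρ → LS.UniqSeg M ρ → Nonempty (M ≃ₜ Sph (m + 1)) → ∀ (x₀ : M) (C : Caps (m + 1) M x₀)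
  (ℓ : ℝ) (Tp Tm : M → ℝ → M) (hp : MV337.Tr C.Dp x₀ ℓ Tp) (hm : MV337.Tr C.Dm x₀ ℓ Tm)
  (k : Type) [Field k] (h2 : (2 : k) ≠ 0) (B C' B0 B' : ℝ), 0 ≤ B → 0 ≤ C' → ∀
  (b : Based m (fun q => PMa k (fun t => P x₀ x₀ t) (trivOf C hp hm).Om_mono q) B C' B0)
  (F : Free ((trivOf C hp hm).wang h2) b B'),
  (∀ j t ht, ((opP x₀).opa k (trivOf C hp hm).Om_mono (m * j)).r t ht ((b.om j).z t ht) =
    sg k m j • (b.om j).z t ht) ∧
  (m % 2 = 1 → ∀ j, 0 < j → j % 2 = 0 → F.cf j ≠ 0)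

/-- **`FLGoal`.** -/
theorem flGoal_of (hO : OmegaGoal0) (hS : SignGoal) : FLGoal := by
  intro n hn M _ _ ρ hρ hs he
  obtain ⟨m, rfl⟩ : ∃ m, n = m + 1 := ⟨n - 1, by omega⟩
  have hne : Nonempty M := by
    obtain ⟨e⟩ := he
    have : (Metric.sphere (0 : EuclideanSpace ℝ (Fin (m + 1 + 1))) 1).Nonempty :=
      NormedSpace.sphere_nonempty.2 zero_le_one
    exact ⟨e.symm ⟨_, this.some_mem⟩⟩
  obtain ⟨x₀⟩ := hne
  obtain ⟨B, hB, hO'⟩ := hO (m + 1) (by omega) M ρ hρ hs he x₀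
  obtain ⟨C⟩ := H388.stCaps (m + 1) M x₀ (by omega) he
  obtain ⟨ℓ, Tp, Tm, hp, hm⟩ := exists_tracks₂ C hρ hs
  obtain ⟨B', hF⟩ := free_of_triv (by omega : 2 ≤ m) (trivOf C hp hm) B B 0 hB.le hB.le
  have hB2 : 0 ≤ max (0 : ℝ) 1 + 2 * B + 2 * max B' 0 := by
    have h1 := le_max_left (0 : ℝ) 1
    have h2 := le_max_right B' 0
    linarith
  refine ⟨max (0 : ℝ) 1 + 2 * B + 2 * max B' 0, ?_, fun k _ h2 => ?_⟩
  · have h1 := le_max_left (0 : ℝ) 1
    have h2 := le_max_right B' 0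
    linarith
  obtain ⟨O⟩ := hO' k h2
  obtain ⟨F⟩ := hF k h2 (basedOf hB.le O)
  obtain ⟨h3, h4⟩ := hS m (by omega) M ρ hρ hs he x₀ C ℓ Tp Tm hp hm k h2 B B 0 (max B' 0)
    hB.le hB.le (basedOf hB.le O) (Free.mono F (le_max_left _ _))
  obtain ⟨P⟩ := nonempty_PMOut (n := m + 1) (by omega) h2 rfl hB.le (le_max_right B' 0)
    (Free.mono F (le_max_left _ _)) ((trivOp C hp hm).wangOp h2) h3
    fun h => h4 (by omega)
  exact ⟨flOut P hB2⟩

end Vale.Agent.P216.H754B
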