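import Vale.Agent.P216.H754B.Sign
import Vale.Agent.P216.H539.StMoore
import Vale.Agent.P216.N929.Main

/-!
# `XGoal` from `Cross`
-/

namespace Vale.Agent.P216.H754B

open Vale.Agent.P216.B64

/-- **B38** in the form of block B44. -/
theorem omegaGoal0_of (hX : N929.Cross) : OmegaGoal0 := by
  intro n hn M _ _ ρ hρ hU he x₀
  obtain ⟨B, hB, h⟩ := N929.omega_of_homeo hX (by omega) M hρ hU he x₀
  exact ⟨B, hB, fun k _ _ => h k⟩

/-- **The free Moore loops.** -/
theorem flGoal_of_cross (hX : N929.Cross) : MV337.FLGoal := flGoal_of (omegaGoal0_of hX) signGoal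

/-- **`XGoal`** -/
theorem xGoal_of_cross (hX : N929.Cross) : XGoal := MV337.xGoal_of MR.stMoore (flGoal_of_cross hX)

end Vale.Agent.P216.H754B
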