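import Vale.Agent.P216.H962.Inst
import Vale.Agent.P216.H923B.DLem
import Vale.Agent.P216.H754B.Pw

/-!
# Block B43: the structure constants of the path fibration and of the free loops as slants
-/

set_option linter.unusedVariables false
set_option linter.unusedSectionVars false

open Set BoundedContinuousFunction

namespace Vale.Agent.P216.H754B

open Vale.Agent.P216.AS Vale.Agent.P216.H901 Vale.Agent.P216.PS Vale.Agent.P216.MV337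
open Vale.Agent.P216.H456 Vale.Agent.P216.H83
open Vale.Agent.P216.H962 (Sl IsFm Sl_congr Jc bJ HP PP0 opL opR opT opθ isFm_T FmT)

section coll

variable {m : ℕ} {D : ℝ → (Fin (m + 1) → ℝ) → (Fin (m + 1) → ℝ)} {b : Fin (m + 1) → ℝ}

theorem toCol (h : Coll m D b) : H923B.Col m D b := ⟨h.b_mem, h.cont, h.maps, h.zero, h.one⟩

/-- **The clutching operator is a slant.** -/
theorem clutch_Sl {k : Type} [Field k] (h2 : (2 : k) ≠ 0) (hm : 1 ≤ m) {E E' : Type}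
    [MetricSpace E] [MetricSpace E'] {Z : Set E} {Y : Set E'} (hC : Coll m D b)
    {Φ : Cu E (m + 1) → E'}
    (hΦ : IsMap (tr (Cu E (m + 1))) (tr E') (bdc (m + 1) Z) Y Φ)
    {F : E × (Fin m → ℝ) → E'} {f₀ : E → E'} (hF : IsFm Z Y F f₀)
    (e : ∀ z ∈ Z, ∀ v ∈ Jc m, F (z, v) = Φ (enc (m + 1) z (D 1 (topv v))))
    (e0 : ∀ z ∈ Z, f₀ z = Φ (enc (m + 1) z b)) (q : ℕ) (x : Ha (tr E') (on k) Y (q + m)) :
    (absE k Z q).symm (susN h2 Z q (m + 1) (lesD k (cub (m + 1) Z) (bdc (m + 1) Z) (q + m)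
      (absE k (bdc (m + 1) Z) (q + m) (pull (on k) hΦ (q + m) x)))) = Sl h2 hm hF q x := by
  rw [(toCol hC).dlem_symm h2 hm hΦ q x]
  exact (LinearMap.congr_fun (Sl_congr h2 hm hF ((toCol hC).isFm hΦ) (fun z hz v hv => e z hz v hv)
    (fun z hz => e0 z hz) q) x).symm

/-- `H962.DLem`. -/
theorem dLem (k : Type) [Field k] (m : ℕ) : H962.DLem k m := by
  intro h2 hm E E' _ _ Z Y D b hC Φ hΦ F f₀ hF e e0 q x
  rw [← clutch_Sl h2 hm hC hΦ hF e e0 q x, LinearEquiv.apply_symm_apply]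

end coll

section

variable {M : Type} [MetricSpace M] [CompactSpace M] {x₀ : M} {ℓ : ℝ} {Tp Tm : M → ℝ → M}
  {m : ℕ} {D : ℝ → (Fin (m + 1) → ℝ) → (Fin (m + 1) → ℝ)} {b : Fin (m + 1) → ℝ}
  {C : Caps (m + 1) M x₀} {k : Type} [Field k] (h2 : (2 : k) ≠ 0) (hm1 : 1 ≤ m)
  (hp : MV337.Tr C.Dp x₀ ℓ Tp) (hm : MV337.Tr C.Dm x₀ ℓ Tm) (hC : Coll m D b)

/-- The clutching operator of the path fibration is `L`. -/
theorem clutch_L (q : ℕ) {r s : ℝ} (hr : 0 < r) (hs : 0 < s) (h₁ : r + ℓ ≤ s)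
    (h₂ : s + ℓ ≤ r + 2 * ℓ) (z : HP k x₀ (q + m) (r + 2 * ℓ)) :
    (((ptrivOf C hp hm).wang h2).iP q).f r s hr h₁ (((ptrivOf C hp hm).wang h2).δ (q + m) s hs
      ((((ptrivOf C hp hm).wang h2).iQ (q + m)).g s (r + 2 * ℓ) hs h₂ z)) =
      opL h2 hm1 hp hm hC q r hr z := by
  have hP := (ptrivOf C hp hm).isMap_clutch (r := r) (s := s) (t := r + 2 * ℓ) hr hs h₁ h₂
  rw [(ptrivOf C hp hm).th_formula h2 q hr hs h₁ h₂ hP z]
  refine clutch_Sl h2 hm1 hC hP (isFm_L hp hm hC hr.le) (fun g hg v hv => ?_) (fun g hg => ?_) q z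
  · change sL Tp Tm ℓ (C.ψ (D 1 (topv v))) g = lcut Tm ℓ (lback Tp ℓ
      (C.ψ (dec2 (m + 1) (enc (m + 1) g (D 1 (topv v)))), dec1 (m + 1) (enc (m + 1) g (D 1 (topv v)))))
    rw [dec1_enc, dec2_enc, lcut_lback_xx hp hm hr.le (hC.maps 1 ⟨zero_le_one, le_rfl⟩ (topv_mem v)) hg]
  · change sL Tp Tm ℓ (C.ψ b) g = lcut Tm ℓ (lback Tp ℓ
      (C.ψ (dec2 (m + 1) (enc (m + 1) g b)), dec1 (m + 1) (enc (m + 1) g b)))
    rw [dec1_enc, dec2_enc, lcut_lback_xx hp hm hr.le hC.b_mem hg]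

/-- The clutching operator of the free loops is `T`. -/
theorem clutch_T (q : ℕ) {r : ℝ} (hr : 0 < r) (hs : 0 < r + 2 * ℓ)
    (z : HP k x₀ (q + m) (r + 2 * ℓ + 2 * ℓ)) :
    (((trivOf C hp hm).wang h2).iP q).f r (r + 2 * ℓ) hr le_rfl
      (((trivOf C hp hm).wang h2).δ (q + m) (r + 2 * ℓ) hs
        ((((trivOf C hp hm).wang h2).iQ (q + m)).g (r + 2 * ℓ) (r + 2 * ℓ + 2 * ℓ) hs le_rfl z)) =
      opT h2 hm1 hp hm hC q r hr z := by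
  have hP := (trivOf C hp hm).isMap_clutch (r := r) (s := r + 2 * ℓ) (t := r + 2 * ℓ + 2 * ℓ) hr hs
    le_rfl le_rfl
  rw [(trivOf C hp hm).th_formula h2 q hr hs le_rfl le_rfl hP z]
  refine clutch_Sl h2 hm1 hC hP (isFm_T hm1 hp hm hC hr.le) (fun g hg v hv => ?_)
    (fun g hg => ?_) q z
  · change sR Tp Tm ℓ (r + 2 * ℓ) (C.ψ (D 1 (topv v))) (sL Tp Tm ℓ (C.ψ (D 1 (topv v))) g) =
      cut Tm ℓ (r + 2 * ℓ) (back Tp ℓ r
      (C.ψ (dec2 (m + 1) (enc (m + 1) g (D 1 (topv v)))), dec1 (m + 1) (enc (m + 1) g (D 1 (topv v)))))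
    rw [dec1_enc, dec2_enc, cut_back_xx hp hm hr.le (hC.maps 1 ⟨zero_le_one, le_rfl⟩ (topv_mem v)) hg]
  · change sR Tp Tm ℓ (r + 2 * ℓ) (C.ψ b) (sL Tp Tm ℓ (C.ψ b) g) =
      cut Tm ℓ (r + 2 * ℓ) (back Tp ℓ r
      (C.ψ (dec2 (m + 1) (enc (m + 1) g b)), dec1 (m + 1) (enc (m + 1) g b)))
    rw [dec1_enc, dec2_enc, cut_back_xx hp hm hr.le hC.b_mem hg]

variable {B C' B0 B' : ℝ}

/-- **[PW]** -/
theorem exists_lam (hm2 : 2 ≤ m) (hB : 0 ≤ B) (hC' : 0 ≤ C')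
    (β : Based m (fun q => PMa k (PP0 x₀) (H962.mono_P x₀) q) B C' B0) :
    ∃ lam : ℕ → k, (∀ j, lam (j + 1) ≠ 0) ∧ ∀ j t (ht : 0 < t) (ht' : 0 < t + 2 * ℓ),
      opL h2 hm1 hp hm hC (m * j) t ht ((β.om (j + 1)).z (t + 2 * ℓ) ht') =
        lam (j + 1) • (β.om j).z t ht := by
  obtain ⟨B', hF⟩ := free_of_triv hm2 (ptrivOf C hp hm) B C' B0 hB hC'
  obtain ⟨F⟩ := hF k h2 β
  refine ⟨F.cf, fun j => pw_cf_ne hm1 C hp hm h2 F j, fun j t ht ht' => ?_⟩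
  have hl := hp.nonneg
  have hs : 0 < t + ℓ := by linarith
  rw [← F.th j t (t + ℓ) (t + 2 * ℓ) ht hs ht' le_rfl (by linarith)]
  exact (clutch_L h2 hm1 hp hm hC (m * j) ht hs le_rfl (by linarith)
    ((β.om (j + 1)).z (t + 2 * ℓ) ht')).symm

/-- **(8b)** -/
theorem cf_smul_om {β : Based m (fun q => PMa k (fun t => P x₀ x₀ t) (trivOf C hp hm).Om_mono q)
      B C' B0} (F : Free ((trivOf C hp hm).wang h2) β B') (j : ℕ) (t : ℝ) (ht : 0 < t)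
    (ht' : 0 < t + 2 * ℓ + 2 * ℓ) :
    F.cf (j + 1) • (β.om j).z t ht =
      opT h2 hm1 hp hm hC (m * j) t ht ((β.om (j + 1)).z (t + 2 * ℓ + 2 * ℓ) ht') := by
  have hl := hp.nonneg
  have hs : 0 < t + 2 * ℓ := by linarith
  rw [← F.th j t (t + 2 * ℓ) (t + 2 * ℓ + 2 * ℓ) ht hs ht' le_rfl le_rfl]
  exact clutch_T h2 hm1 hp hm hC (m * j) ht hs ((β.om (j + 1)).z (t + 2 * ℓ + 2 * ℓ) ht')

end

end Vale.Agent.P216.H754B
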