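import Vale.Agent.P216.H962.Fin
import Vale.Agent.P216.H388.Spur3
import Vale.Agent.P216.H754B.Sg
import Vale.Agent.P216.H754B.Fl
import Vale.Agent.P216.B64.SCS

/-!
# Block B43: the signs (`SignGoal`)
-/

open Set BoundedContinuousFunction

namespace Vale.Agent.P216.H754B

open Vale.Agent.P216.AS Vale.Agent.P216.H901 Vale.Agent.P216.PS Vale.Agent.P216.MV337
open Vale.Agent.P216.H456 Vale.Agent.P216.B64

/-- **B43 (SIGN).** -/
theorem signGoal : SignGoal := by
  intro m hm3 M _ _ ρ hρ hU ⟨eh⟩ x₀ C ℓ Tp Tm hp hm k _ h2 B C' B0 B' hB hC' β F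
  have hm1 : 1 ≤ m := by omega
  have : SimplyConnectedSpace (Sph (m + 1)) := simplyConnected_sph (m + 1) (by omega)
  have : SimplyConnectedSpace M := simplyConnected_of_homeo eh
  obtain ⟨D, b, hC⟩ := exists_coll m
  obtain ⟨lam, hne, hlam⟩ := exists_lam h2 hm1 hp hm hC (by omega) hB hC' β
  obtain ⟨K, hK, hw⟩ := H388.exists_wait_pull' hρ hU hm1 hp hm hC
  obtain ⟨h1, h3⟩ := H962.signs h2 hm1 hp hm hC hB β lam hlam hK
    (fun t ht q z => (hw k t ht.le q z).1) (fun t ht q z => (hw k t ht.le q z).2)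
    (fun t ht i z => H388.pull_c0_opT h2 hm1 hp hm hC 0 t ht i z) hne
  refine ⟨h1, fun hodd j hj he hcf => ?_⟩
  obtain ⟨j, rfl⟩ : ∃ i, j = i + 1 := ⟨j - 1, by omega⟩
  obtain ⟨T, hT⟩ := exists_om_ne β j
  have hl := hp.nonneg
  have ht : 0 < max T 1 := lt_max_of_lt_right one_pos
  have ht' : 0 < max T 1 + 2 * ℓ + 2 * ℓ := by linarith
  have e1 := cf_smul_om h2 hm1 hp hm hC F j (max T 1) ht ht'
  have e2 := h3 j (max T 1) ht ht'
  have e3 : (0 : k) = (1 + (-1 : k) ^ (1 + m * j)) * lam (j + 1) := by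
    have e4 : (0 : k) • (β.om j).z (max T 1) ht =
        ((1 + (-1 : k) ^ (1 + m * j)) * lam (j + 1)) • (β.om j).z (max T 1) ht := by
      rw [← hcf]
      exact e1.trans e2
    rw [← sub_eq_zero, ← sub_smul, smul_eq_zero, sub_eq_zero] at e4
    exact e4.resolve_right (hT _ ht (le_max_left _ _))
  have hev : Even (1 + m * j) := by
    have hm2 : Odd m := Nat.odd_iff.2 hodd
    have hj2 : Odd j := by
      rw [Nat.odd_iff]
      omega
    rw [add_comm]
    exact (hm2.mul hj2).add_one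
  rw [hev.neg_one_pow] at e3
  have h5 : (1 + 1 : k) ≠ 0 := by
    rw [one_add_one_eq_two]
    exact h2
  exact mul_ne_zero h5 (hne j) e3.symm

end Vale.Agent.P216.H754B
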