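import Vale.Agent.P216.H754B.XG
import Vale.Agent.P216.H347.Cross

/-!
# `XGoal`
-/

namespace Vale.Agent.P216.H754B

open Vale.Agent.P216.B64

theorem omegaGoal0 : OmegaGoal0 := omegaGoal0_of Crs.cross

theorem flGoal : MV337.FLGoal := flGoal_of_cross Crs.cross

/-- **`XGoal`.** -/
theorem xGoal : XGoal := xGoal_of_cross Crs.cross

end Vale.Agent.P216.H754B
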