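import Vale.Agent.P216.H754B.Gen
import Vale.Agent.P216.B64.Contract

/-!
# Block B44: the generators of the free loops, one for each degree
-/

namespace Vale.Agent.P216.H754B

open Vale.Agent.P216.H901 Vale.Agent.P216.B64

variable {k : Type} [Field k]

/-- **The output at the level of persistence modules.** -/
structure PMOut (n : ℕ) (X : ℕ → PM k) (OX : ∀ q, PMOp (X q)) (B : ℝ) where
  g : ∀ q, (X q).Fam
  line : ∀ q, (X q).Line (g q) B
  g_zero : ∀ q, ¬ Deg n q → ∀ t ht, (g q).z t ht = 0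
  rev_zero : ∀ t ht, (OX 0).r t ht ((g 0).z t ht) = (g 0).z t ht
  rev_x : ∀ i t ht, (OX (kk n i * (n - 1))).r t ht ((g (kk n i * (n - 1))).z t ht) =
    (-1 : k) ^ (i + 1) • (g (kk n i * (n - 1))).z t ht
  rev_y : ∀ i t ht, (OX (kk n i * (n - 1) + 1)).r t ht ((g (kk n i * (n - 1) + 1)).z t ht) =
    (-1 : k) ^ i • (g (kk n i * (n - 1) + 1)).z t ht
  birth0 : ∀ t ht, B ≤ t → (g (kk n 0 * (n - 1))).z t ht ≠ 0
  birth : ∀ i s t hs ht, s + B ≤ t → (g (kk n i * (n - 1))).z s hs ≠ 0 →
    (g (kk n (i + 1) * (n - 1))).z t ht ≠ 0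

theorem PM.Fam.ne_mono {A : PM k} (o : A.Fam) {s t : ℝ} (hs : 0 < s) (ht : 0 < t) (h : s ≤ t)
    (hne : o.z s hs ≠ 0) : o.z t ht ≠ 0 := by
  intro h0
  apply hne
  rw [← o.comp s t hs h, h0, map_zero]

section

variable {m : ℕ} {G X : ℕ → PM k} {B C B0 c B' : ℝ} {w : Wang m G X c} {b : Based m G B C B0}

/-- The property of the generator in degree `q`. -/
structure GQ (F : Free w b B') (OX : ∀ q, PMOp (X q)) (ε : ℕ → k) (q : ℕ) (g : (X q).Fam) :
    Prop where
  line : (X q).Line g B'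
  sx : ∀ j, q = m * j → ∀ t ht, (OX q).r t ht (g.z t ht) = ε j • g.z t ht
  sy : ∀ j, q = m * j + (m + 1) → ∀ t ht, (OX q).r t ht (g.z t ht) = ε j • g.z t ht
  zx : ∀ j, q = m * j → F.cf j ≠ 0 → ∀ t ht, g.z t ht = 0
  zy : ∀ j, q = m * j + (m + 1) → F.cf (j + 1) ≠ 0 → ∀ t ht, g.z t ht = 0
  bx : ∀ j, q = m * j → F.cf j = 0 → ∀ s t hs ht, s + B' ≤ t → (b.om j).z s hs ≠ 0 →
    g.z t ht ≠ 0
  bo : ∀ j, q = m * j → ∀ s t hs ht, s + B' ≤ t → g.z s hs ≠ 0 → (b.om j).z t ht ≠ 0
  z0 : (∀ j, q ≠ m * j) → (∀ j, q ≠ m * j + (m + 1)) → ∀ t ht, g.z t ht = 0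

theorem exists_GQ (hm : 2 ≤ m) (hB' : 0 ≤ B') (F : Free w b B') {OG : ∀ q, PMOp (G q)}
    {OX : ∀ q, PMOp (X q)} (O : WangOp w OG OX) {ε : ℕ → k}
    (hε : ∀ j t ht, (OG (m * j)).r t ht ((b.om j).z t ht) = ε j • (b.om j).z t ht) (q : ℕ) :
    ∃ g : (X q).Fam, GQ F OX ε q g := by
  by_cases h1 : ∃ j, q = m * j
  · obtain ⟨j, rfl⟩ := h1
    have hj : ∀ i, m * j = m * i → i = j := fun i hi =>
      (Nat.eq_of_mul_eq_mul_left (by omega) hi).symm
    refine ⟨F.x j, ⟨F.line_x j, ?_, ?_, ?_, ?_, ?_, ?_, ?_⟩⟩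
    · intro i hi t ht
      rw [hj i hi]
      exact op_x F O hε hB' j t ht
    · intro i hi
      exact absurd (Dvd.intro _ hi) (not_dvd_y hm i)
    · intro i hi hcf
      rw [hj i hi] at hcf
      exact F.x_zero j hcf
    · intro i hi
      exact absurd (Dvd.intro _ hi) (not_dvd_y hm i)
    · intro i hi hcf
      rw [hj i hi] at hcf ⊢
      exact F.x_ne j hcf
    · intro i hi
      rw [hj i hi]
      exact F.om_ne j
    · intro hi
      exact absurd rfl (hi j)
  · by_cases h2 : ∃ j, q = m * j + (m + 1)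
    · obtain ⟨j, rfl⟩ := h2
      have hj : ∀ i, m * j + (m + 1) = m * i + (m + 1) → i = j := fun i hi =>
        (Nat.eq_of_mul_eq_mul_left (by omega) (Nat.add_right_cancel hi)).symm
      refine ⟨F.y j, ⟨F.line_y j, ?_, ?_, ?_, ?_, ?_, ?_, ?_⟩⟩
      · intro i hi
        exact absurd ⟨i, hi⟩ h1
      · intro i hi t ht
        rw [hj i hi]
        exact op_y F O hε j t ht
      · intro i hi
        exact absurd ⟨i, hi⟩ h1
      · intro i hi hcf
        rw [hj i hi] at hcf
        exact F.y_zero j hcf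
      · intro i hi
        exact absurd ⟨i, hi⟩ h1
      · intro i hi
        exact absurd ⟨i, hi⟩ h1
      · intro _ hi
        exact absurd rfl (hi j)
    · have h3 : ¬ m ∣ q := fun ⟨j, hj⟩ => h1 ⟨j, hj⟩
      have h4 : ∀ j, q ≠ m * j + (m + 1) := fun j hj => h2 ⟨j, hj⟩
      refine ⟨PM.Fam.zero _, ⟨?_, ?_, ?_, ?_, ?_, ?_, ?_, ?_⟩⟩
      · intro s t hs h hb x
        exact ⟨0, by rw [F.eph q h3 h4 s t hs h hb x, zero_smul]⟩
      · intro i hi
        exact absurd ⟨i, hi⟩ h1
      · intro i hi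
        exact absurd ⟨i, hi⟩ h2
      · intro i hi
        exact absurd ⟨i, hi⟩ h1
      · intro i hi
        exact absurd ⟨i, hi⟩ h2
      · intro i hi
        exact absurd ⟨i, hi⟩ h1
      · intro i hi
        exact absurd ⟨i, hi⟩ h1
      · intro _ _ t ht
        rfl

/-- The sign of the reversal on `om j`. -/
def sg (k : Type) [Field k] (m j : ℕ) : k := (-1 : k) ^ (j + m * (j * (j - 1) / 2))

theorem mul_pred_half (j : ℕ) : (j + 1) * (j + 1 - 1) / 2 = j * (j - 1) / 2 + j := by
  have h : (j + 1) * (j + 1 - 1) = j * (j - 1) + j * 2 := by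
    cases j with
    | zero => rfl
    | succ j => simp only [Nat.add_sub_cancel]; ring
  rw [h, Nat.add_mul_div_right _ _ (by norm_num)]

theorem sg_zero (m : ℕ) : sg k m 0 = 1 := by simp [sg]

theorem sg_succ (m j : ℕ) : sg k m (j + 1) = -(-1 : k) ^ (m * j) * sg k m j := by
  unfold sg
  rw [mul_pred_half]
  have : j + 1 + m * (j * (j - 1) / 2 + j) = (j + m * (j * (j - 1) / 2)) + m * j + 1 := by ring
  rw [this, pow_succ, pow_add]
  ring

/-- `m` even. -/
theorem sg_even {m : ℕ} (hm : m % 2 = 0) (j : ℕ) : sg k m j = (-1 : k) ^ j := by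
  induction j with
  | zero => rw [sg_zero, pow_zero]
  | succ j ih =>
    have : Even (m * j) := (Nat.even_iff.2 hm).mul_right j
    rw [sg_succ, ih, this.neg_one_pow, pow_succ]
    ring

/-- `m` odd. -/
theorem sg_odd {m : ℕ} (hm : m % 2 = 1) (i : ℕ) :
    sg k m (2 * i) = (-1 : k) ^ i ∧ sg k m (2 * i + 1) = (-1 : k) ^ (i + 1) := by
  induction i with
  | zero =>
    refine ⟨by rw [mul_zero, sg_zero, pow_zero], ?_⟩
    rw [sg_succ, mul_zero, sg_zero, mul_zero, pow_zero]
    ring
  | succ i ih =>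
    have h1 : Odd (m * (2 * i + 1)) := (Nat.odd_iff.2 hm).mul (odd_two_mul_add_one i)
    have h2 : Even (m * (2 * i + 1 + 1)) := by
      have : Even (2 * i + 1 + 1) := ⟨i + 1, by ring⟩
      exact this.mul_left m
    have e1 : sg k m (2 * (i + 1)) = (-1 : k) ^ (i + 1) := by
      rw [show 2 * (i + 1) = 2 * i + 1 + 1 by ring, sg_succ, ih.2, h1.neg_one_pow]
      ring
    refine ⟨e1, ?_⟩
    rw [sg_succ, e1, show 2 * (i + 1) = 2 * i + 1 + 1 by ring, h2.neg_one_pow, pow_succ _ (i + 1)]
    ring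

theorem sg_ne_succ (h2 : (2 : k) ≠ 0) {m j : ℕ} (h : Even (m * j)) :
    sg k m (j + 1) ≠ sg k m j := by
  rw [sg_succ, h.neg_one_pow]
  intro h3
  have h4 : 2 * sg k m j = 0 := by linear_combination -h3
  rcases mul_eq_zero.1 h4 with h5 | h5
  · exact h2 h5
  · unfold sg at h5
    exact (pow_ne_zero _ (by simp)) h5

/-- **The generators in all degrees.** -/
theorem nonempty_PMOut {n : ℕ} (hn : 4 ≤ n) (h2 : (2 : k) ≠ 0) (hm : m = n - 1) (hC : 0 ≤ C)
    (hB' : 0 ≤ B') (F : Free w b B') {OG : ∀ q, PMOp (G q)}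
    {OX : ∀ q, PMOp (X q)} (O : WangOp w OG OX)
    (hε : ∀ j t ht, (OG (m * j)).r t ht ((b.om j).z t ht) = sg k m j • (b.om j).z t ht)
    (hcf : n % 2 = 0 → ∀ j, 0 < j → j % 2 = 0 → F.cf j ≠ 0) :
    Nonempty (PMOut n X OX (max B0 1 + 2 * C + 2 * B')) := by
  have hm2 : 2 ≤ m := by omega
  choose g hg using exists_GQ hm2 hB' F O hε
  have hmax : (1 : ℝ) ≤ max B0 1 := le_max_right _ _
  -- the structure constants which vanish
  have hcf0 : ∀ i, F.cf (kk n i) = 0 := by
    intro i
    by_contra h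
    rcases Nat.mod_two_eq_zero_or_one n with h0 | h0
    · have e : kk n i = 2 * i + 1 := by simp [kk, h0]
      rw [e] at h
      have := sign_eq_of_cf_ne F O hε _ h
      exact sg_ne_succ h2 ((even_two_mul i).mul_left m) this
    · have e : kk n i = i + 1 := by simp [kk, h0]
      rw [e] at h
      have := sign_eq_of_cf_ne F O hε _ h
      have hme : Even m := Nat.even_iff.2 (by omega)
      exact sg_ne_succ h2 (hme.mul_right i) this
  have hx : ∀ i, kk n i * (n - 1) = m * kk n i := fun i => by rw [hm, mul_comm]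
  have hkk : ∀ i, 1 ≤ kk n i := fun i => by
    unfold kk
    split_ifs <;> omega
  have hy : ∀ i, kk n i * (n - 1) + 1 = m * (kk n i - 1) + (m + 1) := fun i => by
    obtain ⟨j, hj⟩ : ∃ j, kk n i = j + 1 := ⟨kk n i - 1, by have := hkk i; omega⟩
    rw [hx, hj, Nat.add_sub_cancel]
    ring
  have hsx : ∀ i, sg k m (kk n i) = (-1) ^ (i + 1) := by
    intro i
    rcases Nat.mod_two_eq_zero_or_one n with h0 | h0
    · have e : kk n i = 2 * i + 1 := by simp [kk, h0]
      rw [e]
      exact (sg_odd (by omega) i).2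
    · have e : kk n i = i + 1 := by simp [kk, h0]
      rw [e]
      exact sg_even (by omega) _
  have hsy : ∀ i, sg k m (kk n i - 1) = (-1) ^ i := by
    intro i
    rcases Nat.mod_two_eq_zero_or_one n with h0 | h0
    · have e : kk n i = 2 * i + 1 := by simp [kk, h0]
      rw [e, Nat.add_sub_cancel]
      exact (sg_odd (by omega) i).1
    · have e : kk n i = i + 1 := by simp [kk, h0]
      rw [e, Nat.add_sub_cancel]
      exact sg_even (by omega) _
  refine ⟨⟨g, fun q => ((hg q).line).mono (by nlinarith), ?_, ?_, ?_, ?_, ?_, ?_⟩⟩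
  · -- the degrees without generator
    intro q hq
    by_cases h1 : ∃ j, q = m * j
    · obtain ⟨j, hj⟩ := h1
      refine (hg q).zx j hj ?_
      have hj0 : j ≠ 0 := by
        rintro rfl
        exact hq (Or.inl (by rw [hj, mul_zero]))
      rcases Nat.mod_two_eq_zero_or_one n with h0 | h0
      · refine hcf h0 j (Nat.pos_of_ne_zero hj0) ?_
        by_contra h3
        apply hq
        refine Or.inr ⟨j / 2, Or.inl ?_⟩
        rw [hx, hj]
        congr 1
        simp only [kk, h0]
        norm_num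
        omega
      · exfalso
        apply hq
        refine Or.inr ⟨j - 1, Or.inl ?_⟩
        rw [hx, hj]
        congr 1
        simp only [kk, h0]
        norm_num
        omega
    · by_cases h2 : ∃ j, q = m * j + (m + 1)
      · obtain ⟨j, hj⟩ := h2
        refine (hg q).zy j hj ?_
        rcases Nat.mod_two_eq_zero_or_one n with h0 | h0
        · refine hcf h0 (j + 1) (by omega) ?_
          by_contra h3
          apply hq
          refine Or.inr ⟨j / 2, Or.inr ?_⟩
          rw [hy, hj]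
          congr 2
          simp only [kk, h0]
          norm_num
          omega
        · exfalso
          apply hq
          refine Or.inr ⟨j, Or.inr ?_⟩
          rw [hy, hj]
          congr 2
          simp only [kk, h0]
          norm_num
      · exact (hg q).z0 (fun j hj => h1 ⟨j, hj⟩) fun j hj => h2 ⟨j, hj⟩
  · intro t ht
    have := (hg 0).sx 0 (by simp) t ht
    rw [sg_zero, one_smul] at this
    exact this
  · intro i t ht
    have := (hg _).sx (kk n i) (hx i) t ht
    rw [hsx] at this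
    exact this
  · intro i t ht
    have := (hg _).sy (kk n i - 1) (hy i) t ht
    rw [hsy] at this
    exact this
  · intro t ht h
    have hk0 : kk n 0 = 1 := by
      unfold kk
      split_ifs <;> rfl
    have hpos : 0 < max B0 1 + 1 * C := by linarith
    refine (hg _).bx (kk n 0) (hx 0) (hcf0 0) (max B0 1 + 1 * C) t hpos ht (by linarith) ?_
    rw [hk0]
    exact om_ne b hC 1 _ hpos (by push_cast; linarith)
  · intro i s t hs ht h hne
    have h1 : 0 < s + B' := by linarith
    have e1 := (hg _).bo (kk n i) (hx i) s (s + B') hs h1 le_rfl hne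
    have h3 : 0 < s + B' + 2 * C := by linarith
    have e2 : (b.om (kk n (i + 1))).z (s + B' + 2 * C) h3 ≠ 0 := by
      have h4 : 0 < s + B' + C := by linarith
      have e3 := b.up (kk n i) (s + B') (s + B' + C) h1 h4 le_rfl e1
      rcases Nat.mod_two_eq_zero_or_one n with h0 | h0
      · have ee : kk n (i + 1) = kk n i + 1 + 1 := by
          simp only [kk, h0]
          norm_num
          ring
        rw [ee]
        exact b.up _ (s + B' + C) _ h4 h3 (by linarith) e3
      · have ee : kk n (i + 1) = kk n i + 1 := by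
          simp only [kk, h0]
          norm_num
        rw [ee]
        exact PM.Fam.ne_mono _ h4 h3 (by linarith) e3
    exact (hg _).bx (kk n (i + 1)) (hx (i + 1)) (hcf0 (i + 1)) _ t h3 ht (by linarith) e2

end

end Vale.Agent.P216.H754B
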